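import Vale.Agent.P011UP.Par
import Vale.Agent.P011UG.Orb

/-!
Actions which exchange a Borel subgroup and its opposite: frames and good chambers.
-/

set_option autoImplicit false
set_option linter.all false

namespace Vale.Agent.P011UGC

open Matrix Subgroup Vale.Agent.P011L Vale.Agent.P183CH Vale.Agent.P183A Vale.Agent.P011U
  Vale.Agent.P011UP Vale.Agent.P011UG

variable {k K : Type} [Field k] [Field K] [Algebra k K] {R : RS} {G : Type} [Group G]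
  {Γ : RG R K G} {a : (K ≃ₐ[k] K) →* MulAut G} {ε : (K ≃ₐ[k] K) →* ℤˣ}
  {π : (K ≃ₐ[k] K) →* Equiv.Perm (Fin R.r)} {d : Fin R.r → Kˣ} {σ θ : K ≃ₐ[k] K}
  {g n x y v u b t f : G} {w : R.Aut} {S S' : Set R.Q} {J : Set (Fin R.r)} {i j : Fin R.r}

theorem comm_n (hR : R.Ok) (hΓ : Γ.Ok) (h : R.A i j = 0) : Commute (Γ.n i) (Γ.n j) := by
  have h' := hR.A_zero_comm.1 h
  have e1 : R.sE i (R.α j) = R.α j := by simp [hR.sE_eq, RS.pr_α, h']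
  have e2 : R.sE j (R.α i) = R.α i := by simp [hR.sE_eq, RS.pr_α, h]
  have cc : ∀ {n : G} {w : R.Aut} {γ δ : R.Q}, Γ.Rep n w → γ ∈ R.Φ → δ ∈ R.Φ →
      (∀ t u, Commute (Γ.x γ t) (Γ.x δ u)) → ∀ t u, Commute (Γ.x (w γ) t) (Γ.x (w δ) u) :=
    fun {n w γ δ} h hγ hδ H t u => by
      obtain ⟨c, hc⟩ := hΓ.rep_conj hR h hγ
      obtain ⟨d, hd⟩ := hΓ.rep_conj hR h hδ
      rw [← c.mul_inv_cancel_left t, ← d.mul_inv_cancel_left u, ← (hc _).1, ← (hd _).1]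
      exact (H _ _).map (MulAut.conj n)
  have d := comm_neg hR hΓ h
  have b := cc (RG.rep_n j) (hR.neg_mem (hR.simple i)) (hR.neg_mem (hR.simple j)) d
  have c := cc (RG.rep_n i) (hR.neg_mem (hR.simple i)) (hR.neg_mem (hR.simple j)) d
  simp only [map_neg, hR.sE_α, e1, e2, neg_neg] at b c
  have a := cc (RG.rep_n i) (hR.neg_mem (hR.simple i)) (hR.simple j) b
  simp only [map_neg, hR.sE_α, e1, neg_neg] at a
  exact ((((a _ _).mul_left (b _ _)).mul_left (a _ _)).mul_right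
    (((c _ _).mul_left (d _ _)).mul_left (c _ _))).mul_right
    (((a _ _).mul_left (b _ _)).mul_left (a _ _))

theorem V_Bo (hΓ : Γ.Ok) (hv : v ∈ Γ.V) (hb : v ∈ Γ.Bo) : v = 1 := by
  obtain ⟨u, hu, t, ht, rfl⟩ := hΓ.mem_Bo.1 hb
  obtain ⟨rfl, rfl⟩ := hΓ.tri u hu t ht hv
  exact one_mul 1

theorem pq_wd (hR : R.Ok) {p : Equiv.Perm (Fin R.r)} (h : Dg R p) (l : List (Fin R.r)) :
    pq p * R.wd l * (pq p)⁻¹ = R.wd (l.map p) := by
  induction l with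
  | nil => exact mul_inv_cancel _
  | cons i l ih =>
    rw [List.map_cons, RS.wd_cons, RS.wd_cons, ← ih, ← pq_sE hR h]
    group

theorem len_ups (hR : R.Ok) : ∀ (l : List (Fin R.r)) {w : R.Aut}, w ∈ R.W → l.Nodup →
    (∀ i ∈ l, ∀ j ∈ l, i ≠ j → R.A i j = 0) → (∀ j ∈ l, 0 ≤ w (R.α j)) →
    R.len (w * R.wd l) = R.len w + l.length
  | [], w, _, _, _, _ => congrArg R.len (mul_one w)
  | j :: l, w, h, h1, h2, h3 => by
    obtain ⟨h4, h5⟩ := List.nodup_cons.1 h1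
    rw [RS.wd_cons, ← mul_assoc, len_ups hR l (mul_mem h (RS.sE_mem_W j)) h5
      (fun i hi j hj => h2 i (by simp [hi]) j (by simp [hj])) fun i hi => by
        rw [RS.mul_app, hR.sE_eq, RS.pr_α, h2 i (by simp [hi]) j (by simp) fun e => h4 (e ▸ hi),
          zero_smul, sub_zero]
        exact h3 i (by simp [hi]), hR.len_mul_pos h (h3 j (by simp)), List.length_cons]
    omega

theorem len_le (w : R.Aut) : R.len w ≤ R.Φ.card := by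
  rw [← Set.ncard_coe_finset]
  exact Set.ncard_le_ncard (fun _ e => e.1) R.Φ.finite_toSet

/-- the points over the quadratic extension -/
def Hz (a : (K ≃ₐ[k] K) →* MulAut G) (ε : (K ≃ₐ[k] K) →* ℤˣ) : Subgroup G where
  carrier := {g | ∀ σ, ε σ = 1 → a σ g = g}
  mul_mem' := fun ha hb σ e => by rw [map_mul, ha σ e, hb σ e]
  one_mem' := fun σ _ => map_one _
  inv_mem' := fun ha σ e => by rw [map_inv, ha σ e]

theorem Hz.map (hx : x ∈ Hz a ε) (θ : K ≃ₐ[k] K) : a θ x ∈ Hz a ε := fun σ e => by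
  rw [← MulAut.mul_apply, ← map_mul, show σ * θ = θ * (θ⁻¹ * σ * θ) by group, map_mul,
    MulAut.mul_apply, hx _ (by simp [e])]

theorem Hz.sq (hx : x ∈ Hz a ε) (θ : K ≃ₐ[k] K) : a θ (a θ x) = x := by
  rw [← MulAut.mul_apply, ← map_mul, hx _ (by simp)]

theorem Hz.eq (hx : x ∈ Hz a ε) (h : ε σ = -1) (h' : ε θ = -1) : a σ x = a θ x := by
  rw [show σ = θ * (θ⁻¹ * σ) by group, map_mul, MulAut.mul_apply, hx _ (by simp [h, h'])]

/-- uniqueness of factorisations gives rational factors -/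
theorem Hz.left {A B : Subgroup G} (h : ∀ x ∈ A, x ∈ B → x = 1)
    (hA : ∀ σ, ε σ = 1 → ∀ x ∈ A, a σ x ∈ A) (hB : ∀ σ, ε σ = 1 → ∀ x ∈ B, a σ x ∈ B) (hx : x ∈ A)
    (hy : y ∈ B) (e : x * y ∈ Hz a ε) : x ∈ Hz a ε := fun σ s => by
  have h1 := e σ s
  rw [map_mul] at h1
  refine (inv_mul_eq_one.1 (h _ (mul_mem (inv_mem hx) (hA σ s x hx)) ?_)).symm
  rw [eq_mul_inv_of_mul_eq h1, mul_assoc, inv_mul_cancel_left]
  exact mul_mem hy (inv_mem (hB σ s y hy))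

variable (Γ a ε π d) in
/-- the abstract form of `Opw` -/
structure OW : Prop where
  hR : R.Ok
  hΓ : Γ.Ok
  dg : ∀ σ, Dg R (π σ)
  ort : ∀ σ i, π σ i ≠ i → R.A (π σ i) i = 0
  pos : ∀ σ i u, ε σ = 1 → a σ (Γ.x (R.α i) u) = Γ.x (R.α (π σ i)) (σ u) ∧
    a σ (Γ.x (-R.α i) u) = Γ.x (-R.α (π σ i)) (σ u)
  neg : ∀ σ i u, ε σ = -1 → a σ (Γ.x (R.α i) u) = Γ.x (-R.α (π σ i)) (d (π σ i) * σ u) ∧
    a σ (Γ.x (-R.α i) u) = Γ.x (R.α (π σ i)) (((d (π σ i))⁻¹ : Kˣ) * σ u)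

variable (Γ a ε θ) in
/-- frames -/
def Frm (f : G) : Prop := f ∈ Hz a ε ∧ ∃ t ∈ Γ.T, a θ f = f * t

variable (Γ a ε θ) in
/-- chambers which are opposite to their conjugates -/
def Good (x : G) : Prop := x ∈ Hz a ε ∧ ∃ v ∈ Γ.V, ∃ b ∈ Γ.Bo, (a θ x)⁻¹ * x = v * b

theorem Frm.good (h : Frm Γ a ε θ f) : Good Γ a ε θ f := by
  obtain ⟨h1, t, ht, e⟩ := h
  exact ⟨h1, 1, one_mem _, _, RG.T_le_Bo (inv_mem ht), by rw [e]; group⟩

variable (Γ a ε π θ) in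
/-- adjacent frames -/
def St (x y : G) : Prop :=
  Frm Γ a ε θ x ∧ Frm Γ a ε θ y ∧ ∃ i, x⁻¹ * y ∈ Γ.GJ {j | ∃ σ, π σ i = j}

theorem St.symm (h : St Γ a ε π θ x y) : St Γ a ε π θ y x :=
  ⟨h.2.1, h.1, h.2.2.imp fun _ e => by simpa using inv_mem e⟩

variable (Γ a ε π θ) in
/-- the chamber `x` contains a frame which is connected to `f` -/
def Cn (f x : G) : Prop :=
  ∃ f', Frm Γ a ε θ f' ∧ x⁻¹ * f' ∈ Γ.Bo ∧ Relation.ReflTransGen (St Γ a ε π θ) f f'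

theorem Cn.of (h : Cn Γ a ε π θ f x) (e : y⁻¹ * x ∈ Γ.Bo) : Cn Γ a ε π θ f y :=
  h.imp fun _ c => ⟨c.1, by simpa [mul_assoc] using mul_mem e c.2.1, c.2.2⟩

namespace OW

variable (h : OW Γ a ε π d)
include h

theorem std (e : ε σ = 1) : Std Γ (a σ) σ 1 1 (π σ) :=
  ⟨h.dg σ, fun i u => by simpa using h.pos σ i u e⟩

/-- every element acts in the standard way, through an element of `N` -/
theorem ex (σ : K ≃ₐ[k] K) : ∃ n w s c, Γ.Rep n w ∧ (∀ γ, w (pq s γ) = (ε σ : ℤ) • γ) ∧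
    Std Γ (a σ) σ n c (s * π σ) := by
  rcases Int.units_eq_one_or (ε σ) with e | e
  · exact ⟨1, 1, 1, 1, RG.rep_T (one_mem _), fun γ => by rw [e]; exact (one_smul _ _).symm,
      h.std e⟩
  obtain ⟨w, hw⟩ := h.hR.exists_Lg Set.univ
  obtain ⟨n, -, hn⟩ := RG.exists_rep' (Γ := Γ) hw.1
  obtain ⟨s, h1, h2⟩ := P011UG.star h.hR h.hΓ hw
  choose c hc using fun j => h.hΓ.rep_conj h.hR hn (h.hR.simple j)
  refine ⟨n, w, s.symm, fun i => (c (s.symm (π σ i)))⁻¹ * d (π σ i), hn, fun γ => ?_,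
    fun i j => ?_, fun i u => ?_⟩
  · rw [e, ← RS.mul_app, RS.aut_ext (w := w * pq s.symm) (w' := LinearEquiv.neg ℤ) fun i => by
      rw [RS.mul_app, pq_α, h2, Equiv.apply_symm_apply]; rfl]
    simp
  · simpa using (h1 (s.symm (π σ i)) (s.symm (π σ j))).symm.trans (by simpa using h.dg σ i j)
  · rw [(h.neg σ i u e).1, (h.neg σ i u e).2, Equiv.Perm.mul_apply, (hc _ _).1, (hc _ _).2, h2]
    simp [mul_assoc, mul_left_comm]

theorem X (hS : ∀ γ ∈ S, (ε σ : ℤ) • pm (π σ) γ ∈ S') (hv : v ∈ Γ.X S) : a σ v ∈ Γ.X S' := by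
  obtain ⟨n, w, s, c, hn, h1, h2⟩ := h.ex σ
  simpa [mul_assoc] using h.hΓ.rep_X h.hR hn (S' := S') (fun _ e _ => e)
    (std_X h.hΓ h2 h.hR (S' := {γ | w γ ∈ S'}) (fun γ e _ =>
      (congrArg (· ∈ S') (h1 (pm (π σ) γ))).mpr (hS γ e)) hv)

theorem T (σ : K ≃ₐ[k] K) (ht : t ∈ Γ.T) : a σ t ∈ Γ.T := by
  obtain ⟨n, w, s, c, hn, -, h2⟩ := h.ex σ
  simpa [mul_assoc] using h.hΓ.nm_N_T h.hR n hn.mem_N _ (P011UP.std_T h.hΓ h2 ht)

theorem rep (σ : K ≃ₐ[k] K) (hg : Γ.Rep g w) : Γ.Rep (a σ g) (pq (π σ) * w * (pq (π σ))⁻¹) := by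
  obtain ⟨n, w', s, c, hn, h1, h2⟩ := h.ex σ
  have h3 := (hn.mul (std_rep h.hR h.hΓ (ψ := ((MulAut.conj n)⁻¹ * a σ : MulAut G))
    (σ := (σ.toRingEquiv : K →+* K)) (std0 (s := σ.toRingEquiv) h2) hg)).mul hn.inv
  have h4 : w' * (pq (s * π σ) * w * (pq (s * π σ))⁻¹) * w'⁻¹ = pq (π σ) * w * (pq (π σ))⁻¹ := by
    have h5 : ∀ γ, w' (pq (s * π σ) γ) = (ε σ : ℤ) • pq (π σ) γ := fun γ => h1 (pq (π σ) γ)
    rw [← mul_assoc, ← mul_assoc, mul_assoc _ _ w'⁻¹, ← _root_.mul_inv_rev, mul_inv_eq_iff_eq_mul]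
    refine LinearEquiv.ext fun γ => ?_
    simp only [RS.mul_app, h5, map_smul, RS.inv_app]
  rw [h4] at h3
  simpa [mul_assoc] using h3

theorem UU (e : ε σ = 1) (hu : u ∈ Γ.U) : a σ u ∈ Γ.U :=
  h.X (fun γ c => by simpa [e] using pm_nonneg c) hu

theorem VV (e : ε σ = 1) (hu : u ∈ Γ.V) : a σ u ∈ Γ.V :=
  h.X (fun γ c => by simpa [e] using show pm (π σ) γ ≤ 0 from fun _ => c _) hu

theorem UV (e : ε σ = -1) (hu : u ∈ Γ.U) : a σ u ∈ Γ.V :=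
  h.X (fun γ c => by simpa [e] using pm_nonneg c) hu

theorem VU (e : ε σ = -1) (hu : u ∈ Γ.V) : a σ u ∈ Γ.U :=
  h.X (fun γ c => by simpa [e] using show pm (π σ) γ ≤ 0 from fun _ => c _) hu

theorem BB (e : ε σ = 1) (hb : b ∈ Γ.Bo) : a σ b ∈ Γ.Bo := by
  obtain ⟨u, hu, t, ht, rfl⟩ := h.hΓ.mem_Bo.1 hb
  exact map_mul (a σ) u t ▸ mul_mem (RG.U_le_Bo (h.UU e hu)) (RG.T_le_Bo (h.T σ ht))

theorem GJ (hJ : ∀ i, π σ i ∈ J ↔ i ∈ J) (hg : g ∈ Γ.GJ J) : a σ g ∈ Γ.GJ J :=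
  (sup_le (fun _ hv => mem_sup_left (h.X (fun γ c => (pm_In hJ c).smul _) hv))
    fun _ ht => mem_sup_right (h.T σ ht) : _ ≤ (Γ.GJ J).comap (a σ).toMonoidHom) hg

theorem fixV (hv : v ∈ Γ.V) (hb : b ∈ Γ.Bo) (e : v * b ∈ Hz a ε) : v ∈ Hz a ε :=
  Hz.left (fun _ => V_Bo h.hΓ) (fun _ s _ => h.VV s) (fun _ s _ => h.BB s) hv hb e

/-- Every good chamber contains a frame. -/
theorem frm_of (e : ε θ = -1) (hx : Good Γ a ε θ x) : ∃ u ∈ Γ.U, Frm Γ a ε θ (x * u) := by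
  obtain ⟨hx, v, hv, b, hb, h1⟩ := hx
  have h2 : v * b ∈ Hz a ε := h1 ▸ mul_mem (inv_mem (Hz.map hx θ)) hx
  have h3 : b ∈ Hz a ε := by simpa using mul_mem (inv_mem (h.fixV hv hb h2)) h2
  obtain ⟨u, hu, t, ht, rfl⟩ := h.hΓ.mem_Bo.1 hb
  have h4 : u ∈ Hz a ε := Hz.left (fun x c c' => by
    simpa using (h.hΓ.tri x c _ (inv_mem c') (by simp [one_mem])).1) (fun _ s _ => h.UU s)
    (fun σ _ _ => h.T σ) hu ht h3
  have h5 := h.hΓ.nm_T_X _ _ (inv_mem ht) _ (inv_mem hu)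
  have h6 : x * (t⁻¹ * u⁻¹ * t⁻¹⁻¹) ∈ Hz a ε := by
    simpa [mul_assoc] using mul_mem (mul_mem hx (inv_mem h3)) (mul_mem (inv_mem h4) h3)
  refine ⟨_, h5, h6, _, inv_mem ht, ?_⟩
  have h7 := mul_mem (inv_mem (h.UV e h5)) hv
  have h8 : (a θ (x * (t⁻¹ * u⁻¹ * t⁻¹⁻¹)))⁻¹ * (x * (t⁻¹ * u⁻¹ * t⁻¹⁻¹)) =
      (a θ (t⁻¹ * u⁻¹ * t⁻¹⁻¹))⁻¹ * v * t := by
    rw [map_mul, _root_.mul_inv_rev, mul_assoc, ← mul_assoc _ x, h1]
    group
  generalize (a θ (t⁻¹ * u⁻¹ * t⁻¹⁻¹))⁻¹ * v = v' at h7 h8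
  generalize x * (t⁻¹ * u⁻¹ * t⁻¹⁻¹) = f at h6 h8
  have h9 := congrArg (a θ) h8
  rw [map_mul, map_mul, map_inv, Hz.sq h6, ← _root_.inv_inj, _root_.mul_inv_rev, inv_inv, h8] at h9
  have := (h.hΓ.tri _ (h.VU e h7) _ (mul_mem (h.T θ ht) ht) (by
    rw [← mul_assoc, ← inv_inv (a θ v' * a θ t), ← h9, _root_.mul_inv_rev]
    simpa [RG.V] using h.hΓ.nm_T_X _ _ (inv_mem ht) _ (inv_mem h7))).1
  rw [map_eq_one_iff _ (a θ).injective] at this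
  rw [this, one_mul] at h8
  rw [← h8]
  group

/-- Two frames in the same residue. -/
theorem gj_of [Infinite K] (e : ε θ = -1) (hJ : ∀ i, π θ i ∈ J ↔ i ∈ J) (hx : Frm Γ a ε θ x)
    (hy : Frm Γ a ε θ y) (hp : x⁻¹ * y ∈ PJ Γ J) : x⁻¹ * y ∈ Γ.GJ J := by
  obtain ⟨m, hm, -⟩ := exists_dom h.hR J
  obtain ⟨s, hs⟩ := exists_gen (K := K) m
  obtain ⟨-, t, ht, e1⟩ := hx
  obtain ⟨-, t', ht', e2⟩ := hy
  obtain ⟨u, hu, l, hl, e3⟩ := (mem_PJ h.hΓ h.hR hm).1 hp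
  have h1 := congrArg (a θ) e3
  rw [map_mul, map_mul, map_inv, e1, e2, _root_.mul_inv_rev, mul_assoc, ← mul_assoc x⁻¹, ← e3] at h1
  have h2 : t⁻¹ * l * t' * (a θ l)⁻¹ ∈ Γ.GJ J := mul_mem (mul_mem (mul_mem
    (mem_sup_right (inv_mem ht)) hl) (mem_sup_right ht')) (inv_mem (h.GJ hJ hl))
  have h3 := h.hΓ.nm_T_X _ _ (inv_mem ht) _ hu
  have h4 : a θ u = t⁻¹ * u * t⁻¹⁻¹ * (t⁻¹ * l * t' * (a θ l)⁻¹) := by
    rw [eq_mul_inv_of_mul_eq h1]; group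
  have h5 := h.UV e (RJ_le_U hu)
  have h6 := h.hΓ.U_inf_V (RJ_le_U (mul_mem (h.hΓ.nm_T_X _ _ (co_mem h.hΓ (m := m) s) _ h3)
    (inv_mem h3))) (by
      have := mul_mem (h.hΓ.nm_T_X _ _ (co_mem h.hΓ (m := m) s) _ h5) (inv_mem h5)
      rw [h4, ← mul_assoc, ← inv_mul_cancel_right (co h.hΓ m s * _) (co h.hΓ m s),
        mul_assoc _ (co h.hΓ m s), mul_assoc _ (co h.hΓ m s * _), co_GJ h.hΓ hm h2,
        _root_.mul_inv_rev, mul_assoc, mul_inv_cancel_left] at this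
      exact this)
  have h7 := cent_RJ h.hΓ h.hR hm hs h3 (mul_inv_eq_one.1 h6)
  rw [← e3, conj_eq_one_iff.1 h7, one_mul]
  exact hl

theorem Bo_PJ (hb : b ∈ Γ.Bo) : b ∈ PJ Γ J := by
  obtain ⟨u, hu, t, ht, rfl⟩ := h.hΓ.mem_Bo.1 hb
  exact mul_mem (U_le_PJ hu) (GJ_le_PJ (mem_sup_right ht))

theorem st [Infinite K] (e : ε θ = -1) (hx : Frm Γ a ε θ x) (hy : Frm Γ a ε θ y)
    (hp : x⁻¹ * y ∈ PJ Γ {j | ∃ σ, π σ i = j}) : St Γ a ε π θ x y :=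
  ⟨hx, hy, i, h.gj_of e (fun _ => ⟨fun ⟨σ, c⟩ => ⟨θ⁻¹ * σ, by simp [c]⟩,
    fun ⟨σ, c⟩ => ⟨θ * σ, by simp [c]⟩⟩) hx hy hp⟩

theorem ext [Infinite K] (e : ε θ = -1) (hx : Cn Γ a ε π θ f x) (hy : Good Γ a ε θ y)
    (hp : x⁻¹ * y ∈ PJ Γ {j | ∃ σ, π σ i = j}) : Cn Γ a ε π θ f y := by
  obtain ⟨f', h1, h2, h3⟩ := hx
  obtain ⟨u, hu, h4⟩ := h.frm_of e hy
  exact ⟨_, h4, by simpa using RG.U_le_Bo hu, h3.tail (h.st e h1 h4 (by
    simpa [mul_assoc] using mul_mem (mul_mem (inv_mem (h.Bo_PJ h2)) hp) (U_le_PJ hu)))⟩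

theorem frm_mul (hf : Frm Γ a ε θ f) (hn : n ∈ Γ.N) (h1 : Frm Γ a ε θ n) :
    Frm Γ a ε θ (f * n) := by
  obtain ⟨h2, t, ht, e⟩ := hf
  obtain ⟨h3, t', ht', e'⟩ := h1
  exact ⟨mul_mem h2 h3, _, mul_mem (h.hΓ.nm_N_T h.hR _ (inv_mem hn) t ht) ht', by
    rw [map_mul, e, e']; group⟩

theorem orbit (P : Subgroup (K ≃ₐ[k] K)) (i : Fin R.r) : ∃ l : List (Fin R.r), l.Nodup ∧ i ∈ l ∧
    (∀ j ∈ l, ∃ τ ∈ P, π τ i = j) ∧ (∀ i ∈ l, ∀ j ∈ l, i ≠ j → R.A i j = 0) ∧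
    ∀ τ ∈ P, l.Perm (l.map (π τ)) := by
  classical
  let O : Finset (Fin R.r) := Finset.univ.filter fun j => ∃ τ ∈ P, π τ i = j
  have m : ∀ j, j ∈ O.toList ↔ ∃ τ ∈ P, π τ i = j := fun j => by simp [O]
  refine ⟨O.toList, O.nodup_toList, (m i).2 ⟨1, one_mem _, by simp⟩, fun j => (m j).1,
    fun j hj j' hj' ne => ?_, fun τ hτ => (List.perm_ext_iff_of_nodup O.nodup_toList
      (O.nodup_toList.map (π τ).injective)).2 fun j => ?_⟩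
  · obtain ⟨τ, -, rfl⟩ := (m _).1 hj
    obtain ⟨τ', -, rfl⟩ := (m _).1 hj'
    simpa using h.ort (τ * τ'⁻¹) (π τ' i) (by simpa using ne)
  · rw [List.mem_map, m]
    refine ⟨fun ⟨τ', c, e⟩ => ⟨π τ⁻¹ j, (m _).2 ⟨τ⁻¹ * τ', mul_mem (inv_mem hτ) c, by
      simp [e]⟩, by simp⟩, ?_⟩
    rintro ⟨j', h1, rfl⟩
    obtain ⟨τ', c, rfl⟩ := (m _).1 h1
    exact ⟨τ * τ', mul_mem hτ c, by simp⟩

/-- A gallery of frames in the standard apartment from the fundamental chamber to the opposite one. -/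
theorem chain (θ : K ≃ₐ[k] K) {Q : G → Prop} (h1 : Q 1) (h2 : ∀ n m i, Q n →
    m ∈ Γ.GJ {j | ∃ σ, π σ i = j} → n * m ∈ Γ.N → Frm Γ a ε θ (n * m) → Q (n * m)) :
    ∃ n w, Q n ∧ n ∈ Hz a ε ∧ Γ.Rep n w ∧ R.Lg Set.univ w := by
  have key : ∀ (M : ℕ) n w, Q n → n ∈ Hz a ε → Γ.Rep n w →
      (∀ σ, pq (π σ) * w * (pq (π σ))⁻¹ = w) → R.Φ.card ≤ R.len w + M →
      ∃ n w, Q n ∧ n ∈ Hz a ε ∧ Γ.Rep n w ∧ R.Lg Set.univ w := by
    intro M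
    induction M using Nat.strong_induction_on with
    | _ M ih =>
      intro n w q hn r iv hM
      by_cases e : ∀ j, w (R.α j) ≤ 0
      · exact ⟨n, w, q, hn, r, r.mem_W, fun j _ => e j⟩
      obtain ⟨i, hi⟩ := not_forall.1 e
      replace hi := (h.hR.sign' r.mem_W (h.hR.simple i)).resolve_right hi
      obtain ⟨l, l1, l2, l3, l4, l5⟩ := h.orbit ⊤ i
      have c1 : ∀ σ, Γ.nd l = Γ.nd (l.map (π σ)) := fun σ =>
        List.Perm.prod_eq' ((l5 σ trivial).map _) (List.pairwise_map.2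
          (l1.imp_of_mem fun a b ne => comm_n h.hR h.hΓ (l4 _ a _ b ne)))
      have c2 : Γ.nd l ∈ Hz a ε := fun σ s => by
        refine Eq.trans ?_ (c1 σ).symm
        rw [RG.nd, RG.nd, map_list_prod, List.map_map, List.map_map]
        exact congrArg _ (List.map_congr_left fun j _ => by
          simp [RG.n, (h.pos σ j _ s).1, (h.pos σ j _ s).2])
      have c3 : ∀ σ, pq (π σ) * (w * R.wd l) * (pq (π σ))⁻¹ = w * R.wd l := fun σ => by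
        have := h.hΓ.rep_unique h.hR (RG.rep_nd l) (c1 σ ▸ RG.rep_nd (l.map (π σ)))
        conv_rhs => rw [← iv σ, this, ← pq_wd h.hR (h.dg σ)]
        group
      have c4 := r.mul (RG.rep_nd l)
      have c5 := len_ups h.hR l r.mem_W l1 l4 fun j hj => by
        obtain ⟨τ, -, rfl⟩ := l3 j hj
        rw [← iv τ, RS.mul_app, RS.mul_app, ← pq_α, RS.inv_app, pq_nonneg]
        exact hi
      have c6 := List.length_pos_of_mem l2
      have c7 := len_le (w * R.wd l)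
      exact ih (M - 1) (by omega) _ _ (h2 n _ i q (h.hΓ.NJ_le h.hR (h.hΓ.rep_NJ h.hR (RG.rep_nd l)
        (RS.wd_mem fun j hj => (l3 j hj).imp fun _ c => c.2))) c4.mem_N ⟨mul_mem hn c2, _,
          (h.hΓ.rep_div h.hR c4 (c3 θ ▸ h.rep θ c4)).2, (mul_inv_cancel_left _ _).symm⟩)
        (mul_mem hn c2) c4 c3 (by omega)
  exact key _ 1 1 h1 (one_mem _) (RG.rep_T (one_mem _)) (fun σ => by simp) (Nat.le_add_left _ _)

/-- Every rational point can be moved into the big cell. -/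
theorem reach : ∀ (m : ℕ) {g : G} {w : R.Aut}, Cell Γ w g → g ∈ Hz a ε →
    R.Φ.card ≤ R.len w + m → ∃ l : List (Fin R.r),
      (∀ t : k, Y Γ l (algebraMap k K t) ∈ Hz a ε) ∧
      ∃ w', R.Lg Set.univ w' ∧ Cell Γ w' (g * Y Γ l 1) := by
  intro m
  induction m using Nat.strong_induction_on with
  | _ m ih =>
    intro g w c hg hm
    by_cases e : ∀ j, w (R.α j) ≤ 0
    · exact ⟨[], fun t => one_mem _, w, ⟨c.mem_W, fun j _ => e j⟩, by simpa [Y] using c⟩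
    obtain ⟨i, hi⟩ := not_forall.1 e
    replace hi := (h.hR.sign' c.mem_W (h.hR.simple i)).resolve_right hi
    obtain ⟨l, h1, h2, h3, h4, h5⟩ := h.orbit ε.ker i
    have h6 : ∀ t : k, Y Γ l (algebraMap k K t) ∈ Hz a ε := fun t τ s => by
      have e : a τ (Y Γ l (algebraMap k K t)) = Y Γ (l.map (π τ)) (algebraMap k K t) := by
        rw [Y, Y, map_list_prod, List.map_map, List.map_map]
        exact congrArg _ (List.map_congr_left fun j _ => by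
          simpa using (h.pos τ j (algebraMap k K t) s).2)
      exact e.trans (List.Perm.prod_eq' ((h5 τ s).map _) (List.pairwise_map.2
        (h1.imp_of_mem fun a b ne => comm_neg h.hR h.hΓ (h4 _ a _ b ne) _ _))).symm
    obtain ⟨w', a1, a2⟩ := c.ups h.hR h.hΓ l h1 h4 fun j hj => by
      obtain ⟨τ, s, rfl⟩ := h3 j hj
      have e1 := (std_cell h.hR h.hΓ (ψ := (a τ : G →* G)) (σ := (τ : K →+* K)) (h.std s) c).uniq
        h.hR h.hΓ (by simpa [hg τ s] using c)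
      rw [← e1, RS.mul_app, RS.mul_app, ← pq_α, RS.inv_app, pq_nonneg]
      exact hi
    have l0 := List.length_pos_of_mem h2
    have b := len_le w'
    obtain ⟨l', b1, w'', b2, b3⟩ := ih (m - 1) (by omega) a1
      (mul_mem hg (by simpa using h6 1)) (by omega)
    exact ⟨l ++ l', fun t => (Y_append (Γ := Γ) l l' _).symm ▸ mul_mem (h6 t) (b1 t), w'', b2, by
      rwa [Y_append, ← mul_assoc]⟩

end OW

end Vale.Agent.P011UGC
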