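import Vale.Agent.P011UGA.IF
import Vale.Agent.P011UGC.Abs
import Vale.Agent.P011UTS.Zar

/-!
Any two frames are connected by a gallery of frames: rational curves of chambers.
-/

set_option autoImplicit false
set_option linter.all false

namespace Vale.Agent.P011UGC

open Matrix Subgroup Filter Polynomial Vale.Agent.P011L Vale.Agent.P183CH Vale.Agent.P183CH.Chev
  Vale.Agent.P183A Vale.Agent.P011U Vale.Agent.P011UP Vale.Agent.P011UG Vale.Agent.P011UH
  Vale.Agent.P011UTS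

variable {k K : Type} [Field k] [Field K] [Algebra k K] {z : k} {e f f' : k → K}

variable (K z) in
/-- the rational functions which are regular at `z` -/
noncomputable def Sr : Subalgebra K (k → K) where
  carrier := {f | ∃ p q : K[X], q.eval (algebraMap k K z) ≠ 0 ∧ ∀ s,
    q.eval (algebraMap k K s) ≠ 0 → f s * q.eval (algebraMap k K s) = p.eval (algebraMap k K s)}
  mul_mem' := fun ⟨p, q, a, b⟩ ⟨p', q', a', b'⟩ => ⟨p * p', q * q', by simp [a, a'], fun s c => by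
    rw [eval_mul, mul_ne_zero_iff] at c
    rw [eval_mul, eval_mul, ← b s c.1, ← b' s c.2, Pi.mul_apply]
    ring⟩
  add_mem' := fun ⟨p, q, a, b⟩ ⟨p', q', a', b'⟩ => ⟨p * q' + p' * q, q * q', by simp [a, a'],
    fun s c => by
      rw [eval_mul, mul_ne_zero_iff] at c
      rw [eval_add, eval_mul, eval_mul, eval_mul, ← b s c.1, ← b' s c.2, Pi.add_apply]
      ring⟩
  algebraMap_mem' := fun c => ⟨C c, 1, by simp, fun s _ => by simp⟩

theorem sr_id : (fun s => algebraMap k K s) ∈ Sr K z := ⟨X, 1, by simp, fun s _ => by simp⟩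

theorem sr_ev (h : e ∈ Sr K z) (h0 : e z ≠ 0) : ∀ᶠ s in cofinite, e s ≠ 0 := by
  obtain ⟨p, q, a, b⟩ := h
  have h1 : p * q ≠ 0 := fun c => mul_ne_zero (mul_ne_zero h0 a) a (by
    rw [b z a, ← eval_mul, c, eval_zero])
  refine ((algebraMap k K).injective.tendsto_cofinite.eventually (p := fun x => ¬(p * q).IsRoot x)
    (by simpa only [eventually_cofinite, not_not] using finite_setOfPred_isRoot h1)).mono fun s c c' => c ?_
  by_cases c2 : q.eval (algebraMap k K s) = 0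
  · rw [IsRoot, eval_mul, c2, mul_zero]
  · rw [IsRoot, eval_mul, ← b s c2, c', zero_mul, zero_mul]

theorem sr_div (h : e ∈ Sr K z) (h0 : e z ≠ 0) (hf : f ∈ Sr K z)
    (h1 : ∀ s, e s ≠ 0 → f' s * e s = f s) : f' ∈ Sr K z := by
  obtain ⟨p, q, a, b⟩ := h
  obtain ⟨p', q', a', b'⟩ := hf
  refine ⟨p' * (q * q), q' * (p * q), by simp [← b z a, a, a', h0], fun s c => ?_⟩
  simp only [eval_mul, mul_ne_zero_iff] at c ⊢
  rw [← b s c.2.2] at c ⊢
  rw [← b' s c.1, ← h1 s (left_ne_zero_of_mul c.2.1)]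
  ring

theorem sr_gal (σ : K ≃ₐ[k] K) (h : f ∈ Sr K z) : (fun s => σ (f s)) ∈ Sr K z := by
  obtain ⟨p, q, a, b⟩ := h
  have c : ∀ (p : K[X]) s, (p.map (σ : K →+* K)).eval (algebraMap k K s) =
      σ (p.eval (algebraMap k K s)) := fun p s => by
    simpa using eval_map_apply (p := p) (σ : K →+* K) (algebraMap k K s)
  exact ⟨p.map σ, q.map σ, by simpa [c] using a, fun s h => by
    rw [c, c, ← map_mul, b s (by simpa [c] using h)]⟩

variable {D : Chev} {T : Tw k (D.grp K)} {ε : (K ≃ₐ[k] K) →* ℤˣ}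
  {π : (K ≃ₐ[k] K) →* Equiv.Perm (Fin D.R.r)} {d : Fin D.R.r → Kˣ} {θ : K ≃ₐ[k] K}
  {c c' : k → D.grp K} {g n v b : D.grp K} {w : D.R.Aut}

variable (z c) in
/-- rational curves -/
def Pa : Prop := Ent (Sr K z) fun s => (c s).1.1

theorem Pa.mul (h : Pa z c) (h' : Pa z c') : Pa z fun s => c s * c' s := Ent.mul h h'

theorem pa_const (g : D.grp K) : Pa z fun _ => g := ent_const _

theorem Pa.inv (h : Pa z c) : Pa z fun s => (c s)⁻¹ := fun a b => pf_comp h (pf_inv a b)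

theorem Pa.dl (h : Pa z c) : (fun s => dl (bt D) (c s).1.1) ∈ Sr K z := pf_comp h pf_dl

theorem Pa.act (h : Pa z c) (σ : K ≃ₐ[k] K) : Pa z fun s => T.a σ (c s) := fun a b => by
  obtain ⟨p, hp⟩ := T.pol σ a b
  simp only [hp]
  clear hp
  induction p using MvPolynomial.induction_on with
  | C x =>
    simp only [MvPolynomial.eval_C]
    exact (Sr K z).algebraMap_mem x
  | add p q x y =>
    simp only [map_add]
    exact (Sr K z).add_mem x y
  | mul_X p i x =>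
    simp only [map_mul, MvPolynomial.eval_X]
    exact (Sr K z).mul_mem x (sr_gal σ (h i.1 i.2))

theorem fl_Bo (hb : b ∈ (GG D K).Bo) : Fl (bt D) 0 b.1.1 := by
  obtain ⟨u, hu, t, ht, rfl⟩ := GG_ok.mem_Bo.1 hb
  obtain ⟨x, hx⟩ := GG_mat.diag_T ht
  rw [val_mul, show t.1.1 = _ from hx]
  exact (up_U hu).1.mul (fl_dg x)

theorem dl_ne (hv : v ∈ (GG D K).V) (hb : b ∈ (GG D K).Bo) : dl (bt D) (v * b).1.1 ≠ 0 := by
  have h1 : ∀ j, (sb (bt D) j (v * b).1.1).det ≠ 0 := fun j => by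
    rw [val_mul, sb_mul (lo_V hv).fl, det_mul, det_sb bt_inj (.inr (lo_V hv).fl),
      det_sb bt_inj (.inl (fl_Bo hb))]
    refine mul_ne_zero (by simp [(lo_V hv).dg]) (Finset.prod_ne_zero_iff.2 fun a _ =>
      left_ne_zero_of_mul (b := b⁻¹.1.1 a a) ?_)
    rw [← Fl.dg bt_inj (fl_Bo hb) (fl_Bo (inv_mem hb)), ← val_mul]
    simp
  exact Finset.prod_ne_zero_iff.2 fun a _ => mul_ne_zero (h1 _) (h1 _)

variable [Infinite K]

theorem good_ev (h : Pa z c) (h1 : ∀ s, c s ∈ Hz T.a ε) (h2 : Good (GG D K) T.a ε θ (c z)) :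
    ∀ᶠ s in cofinite, Good (GG D K) T.a ε θ (c s) := by
  obtain ⟨-, v, hv, b, hb, e⟩ := h2
  exact (sr_ev ((h.act (T := T) θ).inv.mul h).dl (by simpa only [e] using dl_ne hv hb)).mono
    fun s e => ⟨h1 s, cell' e⟩

/-- The coordinates on the big cell are rational. -/
theorem Pa.cell (h : Pa z c) (h1 : ∀ s, P011UH.dl (bt D) (c s).1.1 ≠ 0) :
    ∃ v, Pa z v ∧ ∀ s, v s ∈ (GG D K).V ∧ v s * c s ∈ (GG D K).Bo := by
  let X : D.Mat (Sr K z) := of fun a b => ⟨_, h a b⟩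
  let e (s : k) : Sr K z →+* K := (Pi.evalRingHom _ s).comp (Sr K z).val.toRingHom
  obtain ⟨P, h2, h3, h4⟩ := ldu (M := X) bt_inj (IsUnit.of_mul_eq_one
    ⟨_, sr_div h.dl (h1 z) (one_mem _) fun s e => inv_mul_cancel₀ e⟩ (Subtype.ext (funext fun s =>
      (congrArg (· * (P011UH.dl (bt D) (c s).1.1)⁻¹) (dl_map (e s) X).symm).trans
        (mul_inv_cancel₀ (h1 s)))))
  have a0 : ∀ s {β} {Y : D.Mat (Sr K z)}, Fl β 0 Y → Fl β 0 (Y.map (e s)) :=
    fun s _ _ k a b e' => k a b fun e'' => e' (by rw [map_apply, e'', map_zero])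
  have a1 : ∀ s, (P * X).map (e s) = P.map (e s) * (c s).1.1 := fun s => Matrix.map_mul
  choose v hv t ht u hu b1 b2 using fun s => P011UH.cell (c s) (h1 s) (P := P.map (e s))
    ⟨fun a => by rw [map_apply, h2.dg, map_one], a0 s h2.fl⟩ (a1 s ▸ a0 s h3)
    fun a => a1 s ▸ ((h4 a).map (e s)).ne_zero
  exact ⟨v, fun a b => by simp only [← b2]; exact (P a b).2, fun s =>
    ⟨hv s, b1 s ▸ mul_mem (RG.T_le_Bo (ht s)) (RG.U_le_Bo (hu s))⟩⟩

variable (h : OW (GG D K) T.a ε π d) (hθ : ε θ = -1)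
include h hθ

theorem top : ∃ n w, (∀ f, Frm (GG D K) T.a ε θ f → ∀ (z : k) (u : k → D.grp K), Pa z u →
    (∀ s, u s ∈ (GG D K).U ∧ u s ∈ Hz T.a ε) → u z = 1 →
    ∀ᶠ s in cofinite, Cn (GG D K) T.a ε π θ f (f * u s * n)) ∧ n ∈ Hz T.a ε ∧ (GG D K).Rep n w ∧
    D.R.Lg Set.univ w :=
  h.chain θ (fun f hf z u _ h1 _ => .of_forall fun s => ⟨f, hf, by
    simpa using RG.U_le_Bo (inv_mem (h1 s).1), .refl⟩) fun n m i q h1 h2 h3 f hf z u a b c => by
      filter_upwards [q f hf z u a b c, good_ev (θ := θ) (((pa_const f).mul a).mul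
        (pa_const (n * m))) (fun s => mul_mem (mul_mem hf.1 (b s).2) h3.1) (by
          simpa only [c, mul_one] using (h.frm_mul hf h2 h3).good)] with s e e'
      exact h.ext hθ e e' (by simpa [mul_assoc] using GJ_le_PJ h1)

/-- The set of the chambers which are connected to a frame is open. -/
theorem opn : ∃ n w, (∀ f, Frm (GG D K) T.a ε θ f → ∀ (z : k) (c : k → D.grp K), Pa z c →
    (∀ s, c s ∈ Hz T.a ε) → (f * n)⁻¹ * c z ∈ (GG D K).Bo →
    ∀ᶠ s in cofinite, Cn (GG D K) T.a ε π θ f (c s)) ∧ n ∈ Hz T.a ε ∧ (GG D K).Rep n w ∧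
    D.R.Lg Set.univ w := by
  classical
  obtain ⟨n, w, q, hn, r, l⟩ := top h hθ
  refine ⟨n, w, fun f hf z c h1 h2 h3 => ?_, hn, r, l⟩
  have a1 := (pa_const (f * n)⁻¹).mul h1
  have a2 : dl (bt D) ((f * n)⁻¹ * c z).1.1 ≠ 0 := by simpa using dl_ne (one_mem _) h3
  let c' (s : k) := if dl (bt D) ((f * n)⁻¹ * c s).1.1 = 0 then 1 else (f * n)⁻¹ * c s
  have a3 : ∀ s, dl (bt D) ((f * n)⁻¹ * c s).1.1 ≠ 0 → c' s = (f * n)⁻¹ * c s :=
    fun s e => if_neg e
  obtain ⟨v, b1, b2⟩ := Pa.cell (z := z) (c := c') (fun a b => sr_div a1.dl a2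
    ((Sr K z).mul_mem (a1 a b) a1.dl) fun s e => by simp only [a3 s e, Pi.mul_apply]) fun s => by
      by_cases e : dl (bt D) ((f * n)⁻¹ * c s).1.1 = 0
      · rw [show c' s = 1 from if_pos e]
        exact dl_one.trans_ne one_ne_zero
      · rwa [a3 s e]
  filter_upwards [sr_ev a1.dl a2, q f hf z _ (((pa_const n).mul b1.inv).mul (pa_const n⁻¹))
    (fun s => ⟨RG.UJ_univ (Γ := GG D K) ▸ h.hΓ.Lg_V h.hR r l
      (RG.VJ_univ (Γ := GG D K) ▸ inv_mem (b2 s).1), mul_mem (mul_mem hn (h.fixV (inv_mem (b2 s).1)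
        (b2 s).2 (by
          rw [inv_mul_cancel_left]
          exact ite_mem.2 ⟨fun _ => one_mem _, fun _ => mul_mem (inv_mem (mul_mem hf.1 hn))
            (h2 s)⟩))) (inv_mem hn)⟩) (by
      rw [V_Bo h.hΓ (b2 z).1 (by simpa [a3 z a2, mul_assoc] using mul_mem (b2 z).2 (inv_mem h3))]
      simp)] with s e e'
  exact e'.of (by simpa [a3 s e, mul_assoc] using inv_mem (b2 s).2)

omit hθ in
theorem path {u : D.grp K} (hu : u ∈ (GG D K).U) (h1 : u ∈ Hz T.a ε) : ∃ c : k → D.grp K,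
    c 0 = 1 ∧ c 1 = u ∧ (∀ s, c s ∈ Hz T.a ε) ∧ ∀ z, Pa z c := by
  obtain ⟨m, hm, hm'⟩ := exists_dom h.hR ∅
  obtain ⟨l, l1, l2⟩ := RS.exists_list (R := D.R) (S := D.R.Pos) le_rfl
  obtain ⟨x, rfl⟩ := h.hΓ.exists_P h.hR RS.cl_Pos l1 l2 (g := u) (by rwa [← RG.U_eq])
  have l3 : ∀ γ ∈ l, γ ∈ D.R.Φ := fun γ e => ((l2 γ).1 e).1
  have l4 : ∀ γ ∈ l, 0 < pw m γ := fun γ e => lt_of_not_ge fun c =>
    (h.hR.sign γ (l3 γ e)).1 (funext fun i => hm.In ((l2 γ).1 e).2 c i id)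
  have h0 : ((GG D K).P l fun γ => algebraMap k K 0 ^ (pw m γ).toNat * x γ) = 1 :=
    List.prod_eq_one fun y hy => by
      obtain ⟨γ, e, rfl⟩ := List.mem_map.1 hy
      simp only [map_zero, zero_pow (show (pw m γ).toNat ≠ 0 by have := l4 γ e; omega), zero_mul,
        h.hΓ.x_zero (l3 γ e)]
  refine ⟨fun s => (GG D K).P l fun γ => algebraMap k K s ^ (pw m γ).toNat * x γ, h0, by simp,
    fun s => ?_, fun z => ent_rm (D.nat K) nat_pol ?_⟩
  · by_cases e : s = 0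
    · simp only [e, h0, one_mem]
    let t := Units.mk0 (algebraMap k K s) (by simpa using e)
    have h2 : co h.hΓ m t ∈ Hz T.a ε := fun σ e => by
      simpa [show Units.map (σ : K →* K) t = t from Units.ext (σ.commutes s)] using
        std_co h.hΓ (h.std e) (hm' _ (h.dg σ) fun _ => Iff.rfl) t
    have h3 := mul_mem (mul_mem h2 h1) (inv_mem h2)
    rw [co_P h.hΓ l3] at h3
    convert h3 using 1
    exact congrArg List.prod (List.map_congr_left fun γ e => by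
      dsimp only
      rw [← zpow_natCast, Int.toNat_of_nonneg (l4 γ e).le, Units.val_zpow_eq_zpow_val]; rfl)
  · clear h0 l1 l2 l4 hu h1
    induction l with
    | nil => exact rm_const 1
    | cons γ l ih =>
      simp only [RG.P_cons]
      exact mul_mem (rm_x (l3 γ (by simp)) ((Sr K z).mul_mem ((Sr K z).pow_mem sr_id _)
        ((Sr K z).algebraMap_mem (x γ)))) (ih fun γ e => l3 γ (by simp [e]))

theorem conn0 [Infinite k] (hg : Frm (GG D K) T.a ε θ g) :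
    Relation.ReflTransGen (St (GG D K) T.a ε π θ) 1 g := by
  obtain ⟨n, w, q, hn, r, l⟩ := opn h hθ
  obtain ⟨w0, c0⟩ := exists_cell h.hR h.hΓ (g * n)
  obtain ⟨y, h1, w', l', a, ha, n', r', b, hb, e⟩ := h.reach _ c0 (mul_mem hg.1 hn)
    (Nat.le_add_left _ _)
  obtain rfl := h.hR.Lg_unique l l'
  obtain ⟨u, hu, t, ht, rfl⟩ := h.hΓ.mem_Bo.1 ha
  have h2 := mul_mem (RG.T_le_Bo (h.hΓ.rep_div h.hR r (r'.T_mul ht)).2) hb
  have h3 : n⁻¹ * u * n ∈ (GG D K).V := RG.VJ_univ (Γ := GG D K) ▸ (h.hΓ.Lg_conj' h.hR r l).2 (by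
    rw [RG.UJ_univ]
    simpa [mul_assoc] using hu)
  have h4 := mul_mem (mul_mem hn (h.fixV h3 h2 (by
    have := mul_mem (inv_mem hn) (mul_mem (mul_mem hg.1 hn) (h1 1))
    rw [map_one, e] at this
    simpa [mul_assoc] using this))) (inv_mem hn)
  obtain ⟨c, c1, c2, c3, c4⟩ := path h hu (by simpa [mul_assoc] using h4)
  have h5 : ∀ z : k, Pa z fun s => (c s)⁻¹ * (g * n * Y (GG D K) y (algebraMap k K s)) := fun z =>
    (c4 z).inv.mul ((pa_const _).mul (ent_rm (D.nat K) nat_pol (by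
      clear h1 e
      induction y with
      | nil => exact rm_const 1
      | cons j y ih =>
        simp only [Y_cons]
        exact mul_mem (rm_x (h.hR.neg_mem (h.hR.simple j)) sr_id) ih)))
  have h6 := fun s => mul_mem (inv_mem (c3 s)) (mul_mem (mul_mem hg.1 hn) (h1 s))
  obtain ⟨s, ⟨f, a1, a2, a3⟩, f', b1, b2, b3⟩ := ((q 1 ⟨one_mem _, 1, one_mem _, by simp⟩ 1 _ (h5 1)
    h6 (by simpa [c2, e, mul_assoc] using h2)).and (q g hg 0 _ (h5 0) h6 (by
      have : Y (GG D K) y 0 = 1 := List.prod_eq_one fun x hx => by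
        obtain ⟨j, -, rfl⟩ := List.mem_map.1 hx
        exact h.hΓ.x_zero (h.hR.neg_mem (h.hR.simple j))
      simpa [c1, this] using one_mem _))).exists
  exact (a3.tail (h.st (i := ⟨0, h.hR.pos⟩) hθ a1 b1 (h.Bo_PJ (by
    simpa [mul_assoc] using mul_mem (inv_mem a2) b2)))).trans
    ((@Relation.ReflTransGen.stdSymm _ _ ⟨fun _ _ => St.symm⟩).symm _ _ b3)

omit h hθ [Infinite K] in
theorem conn : P011UGA.CONN := fun k K _ _ _ _ _ D _ T ε π d h o ⟨θ, hθ⟩ g t hg =>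
  haveI := Infinite.of_injective _ (algebraMap k K).injective
  Relation.ReflTransGen.mono (r := St (GG D K) T.a ε π θ)
    (fun _ _ ⟨_, ⟨a, _, b, e⟩, c⟩ => let ⟨s, e'⟩ := GG_ok.exists_hT b
      ⟨⟨s, a, fun _ s => (Hz.eq a s hθ).trans (e' ▸ e)⟩, c⟩) _ _
    (conn0 ⟨R_ok D, GG_ok, h.dg, o, h.pos, h.neg⟩ hθ ⟨hg.1, _, GG_ok.hT_mem t, hg.2 θ hθ⟩)

end Vale.Agent.P011UGC
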